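import Vale.Agent.P022.H917.Unr
import Vale.Agent.P022.H269.Unrv
import Vale.Agent.P022.H565.PowNear

/-!
# P022, Artin reciprocity: [LN] (helper917)
-/

set_option linter.all false

open NumberField IsDedekindDomain WithZero Module TensorProduct
open scoped Pointwise

noncomputable section

namespace Vale.Agent.P022.H917

open Vale.Agent.P022.C

section cyc

variable {K L : Type} [Field K] [Field L] [Algebra K L] {n : ℕ} {σ : L ≃ₐ[K] L}

theorem cyc_fd (h : Cyc K n σ) : FiniteDimensional K L :=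
  Module.finite_of_finrank_pos (by rw [h.rank]; exact h.pos)

theorem cyc_card (h : Cyc K n σ) : Nat.card (L ≃ₐ[K] L) = n := by
  have := cyc_fd h
  have h1 : Nat.card (L ≃ₐ[K] L) ≤ n := by
    rw [← h.rank]
    rw [Nat.card_eq_fintype_card]
    exact AlgEquiv.card_le
  have h2 : Nat.card (Subgroup.zpowers σ) ≤ Nat.card (L ≃ₐ[K] L) :=
    Nat.card_le_card_of_injective _ Subtype.val_injective
  rw [Nat.card_zpowers, h.ord] at h2
  omega

theorem cyc_gal (h : Cyc K n σ) : IsGalois K L := by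
  have := cyc_fd h
  exact IsGalois.of_card_aut_eq_finrank K L ((cyc_card h).trans h.rank.symm)

theorem cyc_mem (h : Cyc K n σ) (g : L ≃ₐ[K] L) : g ∈ Subgroup.zpowers σ := by
  have := cyc_fd h
  have h1 : Subgroup.zpowers σ = ⊤ := by
    apply Subgroup.eq_top_of_card_eq
    rw [Nat.card_zpowers, h.ord, cyc_card h]
  rw [h1]
  exact Subgroup.mem_top g

theorem cyc_pow (h : Cyc K n σ) (g : L ≃ₐ[K] L) : ∃ i : ℕ, g = σ ^ i := by
  have := cyc_fd h
  have h1 := cyc_mem h g
  rw [← mem_powers_iff_mem_zpowers] at h1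
  obtain ⟨i, hi⟩ := h1
  exact ⟨i, hi.symm⟩

theorem cyc_prod (h : Cyc K n σ) {M : Type*} [CommMonoid M] (f : (L ≃ₐ[K] L) → M) :
    letI := cyc_fd h
    ∏ i ∈ Finset.range n, f (σ ^ i) = ∏ g : L ≃ₐ[K] L, f g := by
  classical
  have := cyc_fd h
  rw [← IsCyclic.image_range_orderOf (cyc_mem h), h.ord, Finset.prod_image]
  intro i hi j hj hij
  have hi' : i ∈ Finset.range n := hi
  have hj' : j ∈ Finset.range n := hj
  rw [Finset.mem_range, ← h.ord] at hi' hj'
  exact pow_injOn_Iio_orderOf hi' hj' hij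

theorem cyc_norm (h : Cyc K n σ) (y : L) :
    ∏ i ∈ Finset.range n, (σ ^ i) y = algebraMap K L (Algebra.norm K y) := by
  have := cyc_fd h
  have := cyc_gal h
  rw [Algebra.norm_eq_prod_automorphisms]
  exact cyc_prod h fun g => g y

theorem tw_tmul (R : Type) [Field R] [Algebra K R] (g : L ≃ₐ[K] L) (r : R) (x : L) :
    tw R g (r ⊗ₜ[K] x) = r ⊗ₜ[K] g x := rfl

theorem prod_tmul (R : Type) [Field R] [Algebra K R] (z : R) (f : ℕ → L) (n : ℕ) :
    ∏ i ∈ Finset.range n, (z ⊗ₜ[K] f i : R ⊗[K] L) = (z ^ n) ⊗ₜ[K] ∏ i ∈ Finset.range n, f i := by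
  induction n with
  | zero => simp [Algebra.TensorProduct.one_def]
  | succ n ih =>
    rw [Finset.prod_range_succ, ih, Algebra.TensorProduct.tmul_mul_tmul, Finset.prod_range_succ,
      pow_succ]

theorem nm_of (h : Cyc K n σ) (R : Type) [Field R] [Algebra K R] {a : K} (z : R) (y : L)
    (hz : z ^ n * algebraMap K R (Algebra.norm K y) = algebraMap K R a) : Nm σ n R a := by
  refine ⟨z ⊗ₜ[K] y, ?_⟩
  simp_rw [tw_tmul]
  rw [prod_tmul, cyc_norm h, Algebra.TensorProduct.algebraMap_apply, ← hz]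
  have e : algebraMap K L (Algebra.norm K y) = Algebra.norm K y • (1 : L) := by
    rw [Algebra.smul_def, mul_one]
  rw [e, ← TensorProduct.smul_tmul, Algebra.smul_def, mul_comm]

end cyc

section nf

variable {K L : Type} [Field K] [NumberField K] [Field L] [NumberField L] [Algebra K L] {n : ℕ}
  {σ : L ≃ₐ[K] L}

theorem nm_of_close (h : Cyc K n σ) (v : HeightOneSpectrum (𝓞 K)) {a : K} (ha : a ≠ 0)
    (hc : ∀ k : ℕ, Close v L (k + 1) a) : Nm σ n (v.adicCompletion K) a := by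
  obtain ⟨k, hk⟩ := H565.pow_near v h.pos.ne'
  obtain ⟨y, hy, h1⟩ := hc k
  have hn : Algebra.norm K y ≠ 0 := Algebra.norm_ne_zero_iff.2 hy
  have h2 := val_inv v (exp_lt_one (by omega)) hn ha h1
  obtain ⟨z, _, hz⟩ := hk (algebraMap K (v.adicCompletion K) (a / Algebra.norm K y)) (by
    rw [← map_one (algebraMap K (v.adicCompletion K)), ← map_sub, H565.valued_alg]
    refine h2.trans ?_
    rw [exp_le_exp]
    push_cast
    omega)
  refine nm_of h _ z y ?_
  rw [hz, ← map_mul, div_mul_cancel₀ _ hn]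

omit [NumberField K] [NumberField L] in
theorem map_eq_smul (g : L ≃ₐ[K] L) (x : 𝓞 L) :
    RingOfIntegers.mapRingHom (g : L →+* L) x = g • x := rfl

/-- a norm of value one, trivial decomposition group -/
theorem exists_val_one [IsGalois K L] (v : HeightOneSpectrum (𝓞 K)) (w : HeightOneSpectrum (𝓞 L))
    (hw : dn K w.asIdeal = v.asIdeal)
    (hI : ∀ g : L ≃ₐ[K] L, (∀ x : 𝓞 L, g • x - x ∈ w.asIdeal) → g = 1)
    (hD : ∀ g : L ≃ₐ[K] L, g • w.asIdeal = w.asIdeal → g = 1) :
    ∃ x : L, x ≠ 0 ∧ v.valuation K (Algebra.norm K x) = exp (-1 : ℤ) := by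
  classical
  have hlies := H269.liesOver_dn v w hw
  obtain ⟨π, hπ⟩ := w.intValuation_exists_uniformizer
  obtain ⟨x, h1, h2⟩ := exists_crt (G := L ≃ₐ[K] L) w.asIdeal w.ne_bot 2 π 1
  have hx : w.intValuation x = exp (-1 : ℤ) := by
    have h3 : w.intValuation (x - π) ≤ exp (-((2 : ℕ) : ℤ)) :=
      (w.intValuation_le_pow_iff_mem _ 2).2 h1
    have h4 : w.intValuation (x - π) < w.intValuation π := by
      refine lt_of_le_of_lt h3 ?_
      rw [hπ, exp_lt_exp]
      norm_num
    have e : x = (x - π) + π := by ring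
    rw [e, Valuation.map_add_eq_of_lt_right _ h4, hπ]
  have hg : ∀ g : L ≃ₐ[K] L, g ≠ 1 → w.intValuation (g • x) = 1 := by
    intro g hg
    have h3 : x - 1 ∈ g⁻¹ • w.asIdeal := h2 g⁻¹ fun h => hg (inv_eq_one.1 (hD _ h))
    rw [Ideal.mem_inv_pointwise_smul_iff, smul_sub, smul_one] at h3
    rw [HeightOneSpectrum.intValuation_eq_one_iff]
    intro h4
    apply w.isPrime.ne_top
    rw [Ideal.eq_top_iff_one]
    have := w.asIdeal.sub_mem h4 h3
    rwa [sub_sub_cancel] at this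
  obtain ⟨ν, hν, hν'⟩ := exists_norm (K := K) x
  have h5 : w.intValuation (algebraMap (𝓞 K) (𝓞 L) ν) = exp (-1 : ℤ) := by
    rw [hν, map_prod, Finset.prod_eq_single (1 : L ≃ₐ[K] L) (fun g _ h => hg g h)
      (fun h => absurd (Finset.mem_univ _) h), one_smul, hx]
  have h6 : v.valuation K (algebraMap (𝓞 K) K ν) = exp (-1 : ℤ) := by
    have h7 := HeightOneSpectrum.valuation_liesOver L v w (algebraMap (𝓞 K) K ν)
    rw [H269.ram_one v w hw hI, pow_one] at h7
    rw [h7, ← IsScalarTower.algebraMap_apply (𝓞 K) K L,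
      IsScalarTower.algebraMap_apply (𝓞 K) (𝓞 L) L, HeightOneSpectrum.valuation_of_algebraMap, h5]
  refine ⟨algebraMap (𝓞 L) L x, ?_, by rw [← hν', h6]⟩
  intro h0
  have h8 : x = 0 := by
    apply FaithfulSMul.algebraMap_injective (𝓞 L) L
    rw [h0, map_zero]
  rw [h8, map_zero] at hx
  exact exp_ne_zero hx.symm

/-- [LN] -/
theorem LN : LNStmt := by
  intro K L _ _ _ _ _ n σ h v P hP hdn hU a ha hcase
  have hfd := cyc_fd h
  have hgal := cyc_gal h
  have hPne : P ≠ ⊥ := by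
    rintro rfl
    apply v.ne_bot
    rw [← hdn]
    exact Ideal.comap_bot_of_injective _ (FaithfulSMul.algebraMap_injective (𝓞 K) (𝓞 L))
  let w : HeightOneSpectrum (𝓞 L) := ⟨P, hP, hPne⟩
  have hw : dn K w.asIdeal = v.asIdeal := hdn
  have hlies : w.asIdeal.LiesOver v.asIdeal := H269.liesOver_dn v w hw
  have hI : ∀ g : L ≃ₐ[K] L, (∀ x : 𝓞 L, g • x - x ∈ w.asIdeal) → g = 1 := by
    intro g hg
    obtain ⟨i, rfl⟩ := cyc_pow h g
    exact hU i hg
  have hI' : w.asIdeal.inertia (L ≃ₐ[K] L) = ⊥ := by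
    rw [eq_bot_iff]
    intro g hg
    exact hI g hg
  refine nm_of_close h v ha fun k => ?_
  rcases hcase with h1 | h1
  · exact close_unit v w hI' h1 k
  · have hD : ∀ g : L ≃ₐ[K] L, g • w.asIdeal = w.asIdeal → g = 1 := by
      intro g hg
      obtain ⟨i, rfl⟩ := cyc_pow h g
      refine h1 i ?_
      ext x
      rw [Ideal.mem_comap, map_eq_smul]
      have h2 : x ∈ (σ ^ i)⁻¹ • P ↔ (σ ^ i) • x ∈ P := Ideal.mem_inv_pointwise_smul_iff
      rw [← h2]
      have h3 : (σ ^ i)⁻¹ • P = P := by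
        conv_lhs => rw [← show (σ ^ i) • P = P from hg]
        exact inv_smul_smul _ _
      rw [h3]
    obtain ⟨x, hx0, hx⟩ := exists_val_one v w hw hI hD
    have hva : v.valuation K a ≠ 0 := (Valuation.ne_zero_iff _).2 ha
    set j : ℤ := WithZero.log (v.valuation K a) with hj
    have hj' : v.valuation K a = exp j := (exp_log hva).symm
    let N : L →*₀ K := { Algebra.norm K with map_zero' := Algebra.norm_zero }
    have hN : Algebra.norm K (x ^ (-j)) = Algebra.norm K x ^ (-j) := map_zpow₀ N x (-j)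
    refine Close.of_div v ha (zpow_ne_zero (-j) hx0) (close_unit v w hI' ?_ k)
    rw [map_div₀, hN, map_zpow₀, hx, hj', ← exp_zsmul, div_eq_one_iff_eq exp_ne_zero]
    congr 1
    simp

end nf

end Vale.Agent.P022.H917
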