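import Mathlib

/-!
# Unramified places: elements of the right order are norms, approximately (helper917)
-/

set_option linter.all false

namespace Vale.Agent.P022.H917

open NumberField IsDedekindDomain WithZero
open scoped Pointwise

section abs

variable {A B G : Type*} [CommRing A] [CommRing B] [Algebra A B] [Group G] [Fintype G]
  [MulSemiringAction G B] [IsGaloisGroup G A B]

omit [Fintype G] in
theorem exists_down {b : B} (hb : ∀ g : G, g • b = b) : ∃ a : A, algebraMap A B a = b :=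
  Algebra.IsInvariant.isInvariant (A := A) (G := G) b hb

theorem smul_prod (x : B) (h : G) : h • ∏ g : G, g • x = ∏ g : G, g • x := by
  rw [Finset.smul_prod']
  simp_rw [smul_smul]
  exact Fintype.prod_equiv (Equiv.mulLeft h) _ _ fun g => rfl

theorem smul_sum (x : B) (h : G) : h • ∑ g : G, g • x = ∑ g : G, g • x := by
  rw [Finset.smul_sum]
  simp_rw [smul_smul]
  exact Fintype.sum_equiv (Equiv.mulLeft h) _ _ fun g => rfl

theorem prod_one_add {ι : Type*} (s : Finset ι) (c : B) (f : ι → B) :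
    ∃ r, ∏ i ∈ s, (1 + c * f i) = 1 + c * ∑ i ∈ s, f i + c ^ 2 * r := by
  classical
  induction s using Finset.induction_on with
  | empty => exact ⟨0, by simp⟩
  | insert a s ha ih =>
    obtain ⟨r, hr⟩ := ih
    refine ⟨r + f a * ∑ i ∈ s, f i + c * f a * r, ?_⟩
    rw [Finset.prod_insert ha, Finset.sum_insert ha, hr]
    ring

/-- `N(1 + c t) = 1 + c Tr(t) + c² r` -/
theorem norm_step [IsDomain B] [FaithfulSMul A B] (c : A) (t : B) (τ ν : A)
    (hτ : algebraMap A B τ = ∑ g : G, g • t)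
    (hν : algebraMap A B ν = ∏ g : G, g • (1 + algebraMap A B c * t)) :
    ∃ r : A, ν = 1 + c * τ + c ^ 2 * r := by
  by_cases hc : c = 0
  · subst hc
    refine ⟨0, FaithfulSMul.algebraMap_injective A B ?_⟩
    rw [hν]
    simp
  have hfix : ∀ (g : G) (a : A), g • algebraMap A B a = algebraMap A B a := fun g a => by
    rw [smul_algebraMap]
  have e1 : ∀ g : G, g • (1 + algebraMap A B c * t) = 1 + algebraMap A B c * (g • t) := by
    intro g
    rw [smul_add, smul_one, smul_mul', hfix]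
  obtain ⟨r, hr⟩ := prod_one_add Finset.univ (algebraMap A B c) fun g : G => g • t
  simp_rw [e1] at hν
  rw [hr, ← hτ] at hν
  have hc' : algebraMap A B c ≠ 0 := by
    intro h
    exact hc (FaithfulSMul.algebraMap_injective A B (h.trans (map_zero _).symm))
  obtain ⟨r', hr'⟩ := exists_down (A := A) (G := G) (b := r) fun g => by
    have h1 : g • (algebraMap A B c ^ 2 * r) = algebraMap A B c ^ 2 * r := by
      have h2 : algebraMap A B c ^ 2 * r = algebraMap A B (ν - 1 - c * τ) := by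
        rw [map_sub, map_sub, hν, map_mul, map_one]
        ring
      rw [h2, hfix]
    rw [smul_mul', smul_pow', hfix] at h1
    exact mul_left_cancel₀ (pow_ne_zero 2 hc') h1
  refine ⟨r', FaithfulSMul.algebraMap_injective A B ?_⟩
  rw [hν, map_add, map_add, map_mul, map_mul, map_pow, hr', map_one]

variable [IsDedekindDomain B] [Algebra.IsIntegral A B]

theorem smul_ne_bot {P : Ideal B} (hP : P ≠ ⊥) (g : G) : g • P ≠ ⊥ := by
  intro h
  apply hP
  rw [eq_bot_iff]
  intro y hy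
  have h1 : g • y ∈ g • P := Ideal.smul_mem_pointwise_smul g y P hy
  rw [h, Ideal.mem_bot] at h1
  rw [Ideal.mem_bot]
  exact (smul_eq_zero_iff_eq g).1 h1

/-- approximation at the conjugates of `P` -/
theorem exists_crt (P : Ideal B) [P.IsPrime] (hP : P ≠ ⊥) (n : ℕ) (x₀ c₀ : B) :
    ∃ x : B, x - x₀ ∈ P ^ n ∧ ∀ g : G, g • P ≠ P → x - c₀ ∈ g • P := by
  classical
  set s : Finset (Ideal B) := Finset.univ.image fun g : G => g • P with hs
  obtain ⟨x, hx⟩ := IsDedekindDomain.exists_forall_sub_mem_ideal (s := s) (fun Q : Ideal B => Q)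
    (fun Q => if Q = P then n else 1)
    (by
      intro Q hQ
      rw [hs, Finset.mem_image] at hQ
      obtain ⟨g, _, rfl⟩ := hQ
      exact Ideal.prime_of_isPrime (smul_ne_bot hP g) inferInstance)
    (fun i _ j _ h => h) (fun Q => if Q.1 = P then x₀ else c₀)
  refine ⟨x, ?_, fun g hg => ?_⟩
  · have := hx P (Finset.mem_image.2 ⟨1, Finset.mem_univ _, one_smul _ _⟩)
    simpa only [if_true] using this
  · have := hx (g • P) (Finset.mem_image.2 ⟨g, Finset.mem_univ _, rfl⟩)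
    simpa only [hg, if_false, pow_one] using this

end abs

section res

variable {A B G : Type*} [CommRing A] [CommRing B] [Algebra A B] [Group G] [Fintype G]
  [MulSemiringAction G B] [IsGaloisGroup G A B]
variable (p : Ideal A) (P : Ideal B) [P.LiesOver p] [P.IsMaximal] [p.IsMaximal]
  [Finite (B ⧸ P)]

attribute [local instance] Ideal.Quotient.field

omit [Fintype G] [P.IsMaximal] [p.IsMaximal] [Finite (B ⧸ P)] in
theorem stab_bij [P.IsPrime] [Finite G] (hI : P.inertia G = ⊥) :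
    Function.Bijective (Ideal.Quotient.stabilizerHom P p G) := by
  refine ⟨?_, Ideal.Quotient.stabilizerHom_surjective G p P⟩
  rw [← MonoidHom.ker_eq_bot_iff, Ideal.Quotient.ker_stabilizerHom]
  rw [eq_bot_iff]
  intro g hg
  have h1 : (g : G) ∈ P.inertia G := fun x => hg x
  rw [hI, Subgroup.mem_bot] at h1
  exact Subtype.ext h1

theorem mk_smul (g : MulAction.stabilizer G P) (x : B) :
    Ideal.Quotient.mk P ((g : G) • x) =
      Ideal.Quotient.stabilizerHom P p G g (Ideal.Quotient.mk P x) := rfl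

/-- the trace modulo `P` -/
theorem sum_mod (hI : P.inertia G = ⊥) {x x₀ : B} (h1 : x - x₀ ∈ P)
    (h2 : ∀ g : G, g • P ≠ P → x ∈ g • P) :
    Ideal.Quotient.mk P (∑ g : G, g • x) =
      algebraMap (A ⧸ p) (B ⧸ P) (Algebra.trace (A ⧸ p) (B ⧸ P) (Ideal.Quotient.mk P x₀)) := by
  classical
  have hfin : Finite (A ⧸ p) :=
    Finite.of_injective _ (algebraMap (A ⧸ p) (B ⧸ P)).injective
  have hfd : Module.Finite (A ⧸ p) (B ⧸ P) := inferInstance
  have hgal : IsGalois (A ⧸ p) (B ⧸ P) := inferInstance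
  have hx : Ideal.Quotient.mk P x = Ideal.Quotient.mk P x₀ := Ideal.Quotient.eq.2 h1
  have h3 : ∀ g : G, g ∉ MulAction.stabilizer G P → Ideal.Quotient.mk P (g • x) = 0 := by
    intro g hg
    rw [Ideal.Quotient.eq_zero_iff_mem, ← Ideal.mem_inv_pointwise_smul_iff]
    refine h2 g⁻¹ fun h => hg ?_
    rw [MulAction.mem_stabilizer_iff]
    conv_lhs => rw [← h]
    exact smul_inv_smul g P
  rw [map_sum, trace_eq_sum_automorphisms,
    ← (stab_bij p P hI).sum_comp fun τ => τ (Ideal.Quotient.mk P x₀), ← hx]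
  have h4 : ∑ g : G, Ideal.Quotient.mk P (g • x) =
      ∑ g ∈ Finset.univ.filter (fun g : G => g ∈ MulAction.stabilizer G P),
        Ideal.Quotient.mk P (g • x) := by
    refine (Finset.sum_subset (Finset.filter_subset _ _) fun g _ hg => ?_).symm
    rw [Finset.mem_filter] at hg
    exact h3 g fun h => hg ⟨Finset.mem_univ _, h⟩
  rw [h4]
  exact Finset.sum_subtype _ (by simp) _

/-- the norm modulo `P` -/
theorem prod_mod (hI : P.inertia G = ⊥) {x x₀ : B} (h1 : x - x₀ ∈ P)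
    (h2 : ∀ g : G, g • P ≠ P → x - 1 ∈ g • P) :
    Ideal.Quotient.mk P (∏ g : G, g • x) =
      algebraMap (A ⧸ p) (B ⧸ P) (Algebra.norm (A ⧸ p) (Ideal.Quotient.mk P x₀)) := by
  classical
  have hfin : Finite (A ⧸ p) :=
    Finite.of_injective _ (algebraMap (A ⧸ p) (B ⧸ P)).injective
  have hfd : Module.Finite (A ⧸ p) (B ⧸ P) := inferInstance
  have hgal : IsGalois (A ⧸ p) (B ⧸ P) := inferInstance
  have hx : Ideal.Quotient.mk P x = Ideal.Quotient.mk P x₀ := Ideal.Quotient.eq.2 h1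
  have h3 : ∀ g : G, g ∉ MulAction.stabilizer G P → Ideal.Quotient.mk P (g • x) = 1 := by
    intro g hg
    rw [← map_one (Ideal.Quotient.mk P), Ideal.Quotient.eq]
    have h5 : g • (x - 1) = g • x - 1 := by rw [smul_sub, smul_one]
    rw [← h5, ← Ideal.mem_inv_pointwise_smul_iff]
    refine h2 g⁻¹ fun h => hg ?_
    rw [MulAction.mem_stabilizer_iff]
    conv_lhs => rw [← h]
    exact smul_inv_smul g P
  rw [map_prod, Algebra.norm_eq_prod_automorphisms,
    ← (stab_bij p P hI).prod_comp fun τ => τ (Ideal.Quotient.mk P x₀), ← hx]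
  have h4 : ∏ g : G, Ideal.Quotient.mk P (g • x) =
      ∏ g ∈ Finset.univ.filter (fun g : G => g ∈ MulAction.stabilizer G P),
        Ideal.Quotient.mk P (g • x) := by
    refine (Finset.prod_subset (Finset.filter_subset _ _) fun g _ hg => ?_).symm
    rw [Finset.mem_filter] at hg
    exact h3 g fun h => hg ⟨Finset.mem_univ _, h⟩
  rw [h4]
  exact Finset.prod_subtype _ (by simp) _

end res

section nf

attribute [local instance] Ideal.Quotient.field

variable {K L : Type*} [Field K] [NumberField K] [Field L] [NumberField L] [Algebra K L]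
  [IsGalois K L]

theorem exists_trace (x : 𝓞 L) :
    ∃ τ : 𝓞 K, algebraMap (𝓞 K) (𝓞 L) τ = ∑ g : L ≃ₐ[K] L, g • x :=
  exists_down (G := L ≃ₐ[K] L) fun g => smul_sum x g

theorem exists_norm (x : 𝓞 L) :
    ∃ ν : 𝓞 K, algebraMap (𝓞 K) (𝓞 L) ν = ∏ g : L ≃ₐ[K] L, g • x ∧
      algebraMap (𝓞 K) K ν = Algebra.norm K (algebraMap (𝓞 L) L x) := by
  obtain ⟨ν, hν⟩ := exists_down (A := 𝓞 K) (G := L ≃ₐ[K] L) fun g => smul_prod x g
  refine ⟨ν, hν, (algebraMap K L).injective ?_⟩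
  rw [Algebra.norm_eq_prod_automorphisms, ← IsScalarTower.algebraMap_apply (𝓞 K) K L,
    IsScalarTower.algebraMap_apply (𝓞 K) (𝓞 L) L, hν, map_prod]
  rfl

variable (v : HeightOneSpectrum (𝓞 K)) (w : HeightOneSpectrum (𝓞 L))
  [hw : w.asIdeal.LiesOver v.asIdeal]

omit [IsGalois K L] in
theorem mem_down (a : 𝓞 K) (h : algebraMap (𝓞 K) (𝓞 L) a ∈ w.asIdeal) : a ∈ v.asIdeal := by
  rw [hw.over]
  exact h

omit [IsGalois K L] in
theorem mem_up (a : 𝓞 K) (h : a ∈ v.asIdeal) : algebraMap (𝓞 K) (𝓞 L) a ∈ w.asIdeal := by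
  rw [hw.over] at h
  exact h

theorem exists_trace_unit (hI : w.asIdeal.inertia (L ≃ₐ[K] L) = ⊥) :
    ∃ (t : 𝓞 L) (τ : 𝓞 K), algebraMap (𝓞 K) (𝓞 L) τ = ∑ g : L ≃ₐ[K] L, g • t ∧
      v.valuation K (algebraMap (𝓞 K) K τ) = 1 := by
  have hpm := v.isMaximal
  have hPm := w.isMaximal
  have hfin : Finite (𝓞 L ⧸ w.asIdeal) := Ideal.finiteQuotientOfFreeOfNeBot _ w.ne_bot
  have hfin' : Finite (𝓞 K ⧸ v.asIdeal) := Ideal.finiteQuotientOfFreeOfNeBot _ v.ne_bot
  obtain ⟨y, hy⟩ := Algebra.trace_surjective (𝓞 K ⧸ v.asIdeal) (𝓞 L ⧸ w.asIdeal) 1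
  obtain ⟨x₀, rfl⟩ := Ideal.Quotient.mk_surjective y
  obtain ⟨t, h1, h2⟩ := exists_crt (G := L ≃ₐ[K] L) w.asIdeal w.ne_bot 1 x₀ 0
  rw [pow_one] at h1
  simp_rw [sub_zero] at h2
  obtain ⟨τ, hτ⟩ := exists_trace (K := K) t
  refine ⟨t, τ, hτ, ?_⟩
  rw [HeightOneSpectrum.valuation_eq_one_iff_notMem]
  intro hmem
  have h3 := sum_mod v.asIdeal w.asIdeal hI h1 h2
  rw [hy, map_one, ← hτ, Ideal.Quotient.eq_zero_iff_mem.2 (mem_up v w τ hmem)] at h3
  exact zero_ne_one h3

theorem exists_norm_res (hI : w.asIdeal.inertia (L ≃ₐ[K] L) = ⊥) (a : 𝓞 K) :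
    ∃ (x : 𝓞 L) (ν : 𝓞 K), algebraMap (𝓞 K) K ν = Algebra.norm K (algebraMap (𝓞 L) L x) ∧
      ν - a ∈ v.asIdeal := by
  have hpm := v.isMaximal
  have hPm := w.isMaximal
  have hfin : Finite (𝓞 L ⧸ w.asIdeal) := Ideal.finiteQuotientOfFreeOfNeBot _ w.ne_bot
  have hfin' : Finite (𝓞 K ⧸ v.asIdeal) := Ideal.finiteQuotientOfFreeOfNeBot _ v.ne_bot
  obtain ⟨y, hy⟩ := FiniteField.norm_surjective (𝓞 K ⧸ v.asIdeal) (𝓞 L ⧸ w.asIdeal)
    (Ideal.Quotient.mk _ a)
  obtain ⟨x₀, rfl⟩ := Ideal.Quotient.mk_surjective y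
  obtain ⟨x, h1, h2⟩ := exists_crt (G := L ≃ₐ[K] L) w.asIdeal w.ne_bot 1 x₀ 1
  rw [pow_one] at h1
  obtain ⟨ν, hν, hν'⟩ := exists_norm (K := K) x
  refine ⟨x, ν, hν', mem_down v w _ ?_⟩
  have h3 := prod_mod v.asIdeal w.asIdeal hI h1 h2
  rw [hy, ← hν] at h3
  rw [map_sub, ← Ideal.Quotient.eq, h3]
  rfl

/-! ### closeness -/

/-- `u` is close to a global norm -/
def Close (L : Type*) [Field L] [NumberField L] [Algebra K L] (k : ℕ) (u : K) : Prop :=
  ∃ y : L, y ≠ 0 ∧ v.valuation K (Algebra.norm K y / u - 1) ≤ exp (-(k : ℤ))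

omit [NumberField L] [IsGalois K L] [Algebra K L] [Field L] in
theorem val_one {u : K} (h : v.valuation K (u - 1) < 1) : v.valuation K u = 1 := by
  have h1 : v.valuation K u = v.valuation K (1 + (u - 1)) := by rw [add_sub_cancel]
  rw [h1]
  exact Valuation.map_one_add_of_lt _ h

omit [NumberField L] [IsGalois K L] [Algebra K L] [Field L] in
theorem val_div {x u : K} {γ : ℤᵐ⁰} (hu : v.valuation K u = 1) (h : v.valuation K (x - u) ≤ γ) :
    v.valuation K (x / u - 1) ≤ γ := by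
  have hu0 : u ≠ 0 := by
    rintro rfl
    rw [map_zero] at hu
    exact zero_ne_one hu
  have e : x / u - 1 = (x - u) / u := by field_simp
  rw [e, map_div₀, hu, div_one]
  exact h

omit [NumberField L] [IsGalois K L] [Algebra K L] [Field L] in
theorem val_inv {x u : K} {γ : ℤᵐ⁰} (hγ : γ < 1) (hx : x ≠ 0) (hu : u ≠ 0)
    (h : v.valuation K (x / u - 1) ≤ γ) : v.valuation K (u / x - 1) ≤ γ := by
  have h1 : v.valuation K (x / u) = 1 := val_one v (lt_of_le_of_lt h hγ)
  have e : u / x - 1 = -((x / u - 1) / (x / u)) := by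
    field_simp
    ring
  rw [e, Valuation.map_neg, map_div₀, h1, div_one]
  exact h

omit [IsGalois K L] in
/-- passing to a quotient -/
theorem Close.of_div {u : K} (hu : u ≠ 0) {y : L} (hy : y ≠ 0) {k : ℕ}
    (h : Close v L k (u / Algebra.norm K y)) : Close v L k u := by
  obtain ⟨z, hz, h1⟩ := h
  refine ⟨z * y, mul_ne_zero hz hy, ?_⟩
  have hn : Algebra.norm K y ≠ 0 := Algebra.norm_ne_zero_iff.2 hy
  have e : Algebra.norm K (z * y) / u = Algebra.norm K z / (u / Algebra.norm K y) := by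
    rw [map_mul]
    field_simp
  rw [e]
  exact h1

theorem exp_lt_one {k : ℕ} (hk : 1 ≤ k) : (exp (-(k : ℤ)) : ℤᵐ⁰) < 1 := by
  rw [← exp_zero, exp_lt_exp]
  omega

/-- one step -/
theorem close_step {t : 𝓞 L} {τ : 𝓞 K}
    (hτ : algebraMap (𝓞 K) (𝓞 L) τ = ∑ g : L ≃ₐ[K] L, g • t)
    (hτ1 : v.valuation K (algebraMap (𝓞 K) K τ) = 1) {k : ℕ} (hk : 1 ≤ k) {u : K}
    (hu : v.valuation K (u - 1) ≤ exp (-(k : ℤ))) : Close v L (k + 1) u := by
  have hu1 : v.valuation K u = 1 := val_one v (lt_of_le_of_lt hu (exp_lt_one hk))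
  set T : K := algebraMap (𝓞 K) K τ with hT
  have hT0 : T ≠ 0 := by
    intro h
    rw [h, map_zero] at hτ1
    exact zero_ne_one hτ1
  have hx : v.valuation K ((u - 1) / T) ≤ exp (-(k : ℤ)) := by
    rw [map_div₀, hτ1, div_one]
    exact hu
  obtain ⟨c, hc⟩ := HeightOneSpectrum.exists_valuation_sub_lt_of_integer v
    (hx.trans (exp_lt_one hk).le) (Units.mk0 (exp (-(k : ℤ)) : ℤᵐ⁰) exp_ne_zero)
  rw [Units.val_mk0] at hc
  have hc2 : v.valuation K (algebraMap (𝓞 K) K c) ≤ exp (-(k : ℤ)) := by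
    have e : algebraMap (𝓞 K) K c = (algebraMap (𝓞 K) K c - (u - 1) / T) + (u - 1) / T := by ring
    rw [e]
    exact Valuation.map_add_le _ hc.le hx
  have hc1 : v.valuation K (algebraMap (𝓞 K) K c - (u - 1) / T) ≤ exp (-((k + 1 : ℕ) : ℤ)) := by
    have h3 : (exp (-(k : ℤ)) : ℤᵐ⁰) = exp (-((k + 1 : ℕ) : ℤ)) * exp 1 := by
      rw [← exp_add]
      congr 1
      push_cast
      ring
    rw [h3] at hc
    rwa [lt_mul_exp_iff_le exp_ne_zero] at hc
  obtain ⟨ν, hν, hν'⟩ := exists_norm (K := K) (1 + algebraMap (𝓞 K) (𝓞 L) c * t)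
  obtain ⟨r, hr⟩ := norm_step (G := L ≃ₐ[K] L) c t τ ν hτ hν
  have hN : algebraMap (𝓞 K) K ν = 1 + algebraMap (𝓞 K) K c * T +
      algebraMap (𝓞 K) K c ^ 2 * algebraMap (𝓞 K) K r := by
    rw [hr, map_add, map_add, map_mul, map_mul, map_pow, map_one]
  have h4 : v.valuation K (algebraMap (𝓞 K) K ν - u) ≤ exp (-((k + 1 : ℕ) : ℤ)) := by
    have e : algebraMap (𝓞 K) K ν - u = (algebraMap (𝓞 K) K c - (u - 1) / T) * T +
        algebraMap (𝓞 K) K c ^ 2 * algebraMap (𝓞 K) K r := by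
      rw [hN]
      field_simp
      ring
    rw [e]
    refine Valuation.map_add_le _ ?_ ?_
    · rw [map_mul, hτ1, mul_one]
      exact hc1
    · rw [map_mul, map_pow]
      calc v.valuation K (algebraMap (𝓞 K) K c) ^ 2 * v.valuation K (algebraMap (𝓞 K) K r)
          ≤ exp (-(k : ℤ)) ^ 2 * 1 :=
            mul_le_mul' (pow_le_pow_left' hc2 2) (HeightOneSpectrum.valuation_le_one v r)
        _ = exp (2 • (-(k : ℤ))) := by rw [mul_one, exp_nsmul]
        _ ≤ exp (-((k + 1 : ℕ) : ℤ)) := by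
          rw [exp_le_exp]
          push_cast
          simp only [smul_eq_mul, nsmul_eq_mul]
          push_cast
          omega
  have h5 : v.valuation K (algebraMap (𝓞 K) K ν / u - 1) ≤ exp (-((k + 1 : ℕ) : ℤ)) :=
    val_div v hu1 h4
  refine ⟨algebraMap (𝓞 L) L (1 + algebraMap (𝓞 K) (𝓞 L) c * t), ?_, ?_⟩
  · intro h0
    rw [h0, Algebra.norm_zero] at hν'
    rw [hν', zero_div, zero_sub, Valuation.map_neg, map_one] at h5
    exact absurd (lt_of_le_of_lt h5 (exp_lt_one (by omega))) (lt_irrefl _)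
  · rw [← hν']
    exact h5

/-- units close to `1` -/
theorem close_near (hI : w.asIdeal.inertia (L ≃ₐ[K] L) = ⊥) {u : K}
    (hu : v.valuation K (u - 1) ≤ exp (-((1 : ℕ) : ℤ))) (k : ℕ) : Close v L (k + 1) u := by
  obtain ⟨t, τ, hτ, hτ1⟩ := exists_trace_unit v w hI
  have hu1 : v.valuation K u = 1 := val_one v (lt_of_le_of_lt hu (exp_lt_one le_rfl))
  have hu0 : u ≠ 0 := by
    rintro rfl
    rw [map_zero] at hu1
    exact zero_ne_one hu1
  induction k with
  | zero =>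
    refine ⟨1, one_ne_zero, ?_⟩
    rw [map_one]
    refine val_inv v (exp_lt_one le_rfl) hu0 one_ne_zero ?_
    rw [div_one]
    exact hu
  | succ k ih =>
    obtain ⟨y, hy, h1⟩ := ih
    have hn : Algebra.norm K y ≠ 0 := Algebra.norm_ne_zero_iff.2 hy
    refine Close.of_div v hu0 hy ?_
    exact close_step v hτ hτ1 (by omega) (val_inv v (exp_lt_one (by omega)) hn hu0 h1)

/-- units -/
theorem close_unit (hI : w.asIdeal.inertia (L ≃ₐ[K] L) = ⊥) {α : K}
    (hα : v.valuation K α = 1) (k : ℕ) : Close v L (k + 1) α := by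
  have hα0 : α ≠ 0 := by
    rintro rfl
    rw [map_zero] at hα
    exact zero_ne_one hα
  obtain ⟨a, ha⟩ := HeightOneSpectrum.exists_valuation_sub_lt_of_integer v hα.le 1
  rw [Units.val_one] at ha
  obtain ⟨x, ν, hν, hνa⟩ := exists_norm_res v w hI a
  have h1 : v.valuation K (algebraMap (𝓞 K) K (ν - a)) < 1 :=
    (HeightOneSpectrum.valuation_lt_one_iff_mem v _).2 hνa
  have h2 : v.valuation K (algebraMap (𝓞 K) K ν - α) < 1 := by
    have e : algebraMap (𝓞 K) K ν - α =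
        algebraMap (𝓞 K) K (ν - a) + (algebraMap (𝓞 K) K a - α) := by
      rw [map_sub]
      ring
    rw [e]
    exact Valuation.map_add_lt _ h1 ha
  have h3 : v.valuation K (algebraMap (𝓞 K) K ν - α) ≤ exp (-((1 : ℕ) : ℤ)) := by
    have h3 : (1 : ℤᵐ⁰) = exp (-((1 : ℕ) : ℤ)) * exp 1 := by
      rw [← exp_add, ← exp_zero]
      congr 1
    rw [h3] at h2
    rwa [lt_mul_exp_iff_le exp_ne_zero] at h2
  have h4 := val_div v hα h3
  have hx0 : algebraMap (𝓞 L) L x ≠ 0 := by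
    intro h0
    rw [h0, Algebra.norm_zero] at hν
    rw [hν, zero_div, zero_sub, Valuation.map_neg, map_one] at h4
    exact absurd (lt_of_le_of_lt h4 (exp_lt_one (by omega))) (lt_irrefl _)
  have hn : Algebra.norm K (algebraMap (𝓞 L) L x) ≠ 0 := Algebra.norm_ne_zero_iff.2 hx0
  refine Close.of_div v hα0 hx0 (close_near v w hI ?_ k)
  refine val_inv v (exp_lt_one le_rfl) hn hα0 ?_
  rw [← hν]
  exact h4

end nf

end Vale.Agent.P022.H917
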